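import Vale.Agent.P287Q.Hb.Re
import Vale.Agent.P269.Map.SQ
import Vale.Agent.P269.Gen.Ser
import Vale.Agent.P269.Bas.NF0

/-!
# Complex conjugation: Borel-Moore classes, Thom, Euler and Chern classes, virtual classes
-/

set_option linter.unusedSectionVars false

namespace Vale.Agent.P269.Re

open Set Function Topology Filter P291Z Mono Tq Polynomial
open scoped ComplexConjugate

section top

variable {X Y : Type} [TopologicalSpace X] [TopologicalSpace Y]

/-- the conjugate of a Borel-Moore class -/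
noncomputable def cjB (β : BM X) : BM X := (exists_cjBM β).choose

theorem ev_cjB (β : BM X) (a : Coch X) : ev (cjB β) a = conj (ev β (cjC a)) :=
  (exists_cjBM β).choose_spec a

theorem ev_cjC {β : BM X} (h : cjB β = β) (a : Coch X) : ev β (cjC a) = conj (ev β a) := by
  rw [← h, ev_cjB, cjC_cjC, h]

theorem isThom_cj {Z : Set X} {c : (r : ℕ) → ((Fin r → ℂ) → X) → Prop} {t : Coch X}
    (h : IsThom Z c t) : IsThom Z c (cjC t) :=
  ⟨cocycle_cjC h.1, (supp_cjC t).trans_subset h.2.1, fun r φ k =>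
    ⟨(cohom_cjC (h.2.2 r φ k).1).trans (cohom_cj_tau r), fun z l hl =>
      (congrArg conj ((h.2.2 r φ k).2 z l hl)).trans (map_zero _)⟩⟩

theorem gys_cj {i : X → Y} {t : Coch Y} {β : BM Y} {β' : BM X} (h : Gys i t β β') :
    Gys i (cjC t) (cjB β) (cjB β') := fun a ha hd => by
  rw [ev_cjB, ev_cjB, cjC_pull, cjC_mul, cjC_cjC,
    h (cjC a) (by rwa [supp_cjC]) (by rwa [← cjC_δ, supp_cjC])]

theorem push_cj {f : X → Y} {β : BM X} {β' : BM Y} (h : Push f β β') :
    Push f (cjB β) (cjB β') := fun a ha => by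
  rw [ev_cjB, ev_cjB, cjC_pull, h _ (cjC_mem_Zc ha)]

theorem cj_one : cj (1 : H X) = 1 := by rw [← hcls_one, cj_hcls cocycle_one, cjC_one]

/-- conjugation as a ring homomorphism -/
noncomputable def cjR : H X →+* H X :=
  ⟨⟨⟨cj, cj_one⟩, cj_mul⟩, map_zero _, map_add _⟩

theorem cjR_apply (c : H X) : cjR c = cj c := rfl

theorem cj_pow (c : H X) (n : ℕ) : cj (c ^ n) = cj c ^ n := map_pow cjR c n

theorem cj_mem {c : H X} (h : c ∈ Ch.Hev X) : cj c ∈ Ch.Hev X :=
  Ch.Hev.induction (P := fun c => cj c ∈ Ch.Hev X) h (fun _ _ h => Ch.mem_Hev (isDeg_cj h))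
    fun a b ha hb => by rw [map_add]; exact add_mem ha hb

/-- conjugation on even classes -/
noncomputable def cjE : Ch.Hev X →+* Ch.Hev X :=
  (cjR.comp (Ch.Hev X).val.toRingHom).codRestrict (Ch.Hev X) fun c => cj_mem c.2

theorem cjE_val (c : Ch.Hev X) : (cjE c).1 = cj c.1 := rfl

theorem cjE_map (f : C(X, Y)) (c : Ch.Hev Y) : cjE (Ch.Hev.map f c) = Ch.Hev.map f (cjE c) :=
  Subtype.ext (cj_map f c.1)

theorem cjE_algebraMap (z : ℂ) : cjE (algebraMap ℂ (Ch.Hev X) z) = algebraMap ℂ _ (conj z) :=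
  Subtype.ext (by
    rw [cjE_val, Subalgebra.coe_algebraMap, Subalgebra.coe_algebraMap,
      Algebra.algebraMap_eq_smul_one, Algebra.algebraMap_eq_smul_one, map_smulₛₗ, cj_one])

theorem cjE_aeval {σ : Type} {x : σ → Ch.Hev X} (hx : ∀ s, cjE (x s) = x s)
    (Θ : MvPolynomial σ ℂ) : cjE (MvPolynomial.aeval x Θ) =
      MvPolynomial.aeval x (MvPolynomial.map conj Θ) := by
  induction Θ using MvPolynomial.induction_on with
  | C a => rw [MvPolynomial.aeval_C, MvPolynomial.map_C, MvPolynomial.aeval_C, cjE_algebraMap]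
  | add p q a b => simp only [map_add, a, b]
  | mul_X p i a => simp only [map_mul, a, MvPolynomial.aeval_X, MvPolynomial.map_X, hx]

theorem cjE_evP (p : C(X, Y)) (ξ : Ch.Hev X) (P : (Ch.Hev Y)[X]) :
    cjE (Ch.evP p ξ P) = Ch.evP p (cjE ξ) (P.map cjE) := by
  induction P using Polynomial.induction_on' with
  | add P Q h h' => rw [Polynomial.map_add, map_add, map_add, map_add, h, h']
  | monomial j a =>
    rw [Polynomial.map_monomial, Ch.evP_monomial, Ch.evP_monomial, map_mul, map_pow, cjE_map]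

theorem cjC_rep (c : H X) : hcls (cjC (rep c)) = cj c := by
  rw [← cj_hcls (DgI.rep_cocycle c), DgI.hcls_rep]

theorem cj_intg [CompactSpace X] {β : BM X} (h : cjB β = β) (c : H X) :
    ev β (rep (cj c)) = conj (ev β (rep c)) := by
  rw [← ev_cjC h, ev_rep, ← cjC_rep, Loc.intg_hcls _ (cocycle_cjC (DgI.rep_cocycle c))]

omit [TopologicalSpace X] in
theorem cjC_ind (B : Set X) : cjC (ind B) = ind B := Subtype.ext (funext fun l => by
  change conj ((ind B).1 l) = (ind B).1 l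
  by_cases h : ∃ y ∈ B, l = [y] <;> simp [ind, h])

omit [TopologicalSpace X] in
theorem cjC_prod (L : List (Coch X)) : cjC L.prod = (L.map cjC).prod := by
  induction L with
  | nil => exact cjC_one
  | cons a L ih => rw [List.map_cons, List.prod_cons, List.prod_cons, cjC_mul, ih]

omit [TopologicalSpace X] in
theorem cjC_neg (a : Coch X) : cjC (-a) = -cjC a := Subtype.ext (funext fun l => map_neg conj (a.1 l))

end top

section vb

variable {Y : Ch.Sp} (E : Ch.VB Y)

/-- **Euler classes are real** -/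
theorem cj_eu : cjE E.eu = E.eu := Subtype.ext (by
  change cj (H.map _ _) = H.map _ _
  rw [cj_map, cj_hcls E.th_cocycle, Ch.VB.hcls_eq_th (isThom_cj E.isThom)])

theorem cj_c1 (χ : Y.G →ₜ* ℂˣ) : cjE (Ch.c1 χ) = Ch.c1 χ := cj_eu _

/-- **Chern classes are real** -/
theorem cj_chern : E.chern.map cjE = E.chern :=
  (E.chern_eq (fun _ => E.chern_mon.map _) (by
    rw [← show cjE E.xi = E.xi from cj_c1 _, ← cjE_evP, E.evP_chern, map_zero])).symm

theorem cj_chR : PowerSeries.map cjE E.chR = E.chR := by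
  rw [Ch.VB.chR, ← E.chern_mon.reverse_map, cj_chern]

end vb

section quo

variable {A W P : Type} [NormedRing A] [NormedAlgebra ℂ A] [NormedAddCommGroup W]
  [NormedSpace ℂ W] [AddCommGroup P] [Module ℂ P] [TopologicalSpace P] {act : A → W → W}
  {S : Set W}

theorem isFund_cjB {β : BM (Quo act S)} (h : P269.IsFund act S β) : P269.IsFund act S (cjB β) :=
  isFund_cj h (ev_cjB β)

theorem isThomOf_cj {ρ : A → P → P} {B N : W → Submodule ℂ P} {t : Coch (Tot act ρ S B N)}
    (h : IsThomOf act ρ S B N t) : IsThomOf act ρ S B N (cjC t) := isThom_cj h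

/-- the shape of the definition of the virtual class -/
def Vr (act : A → W → W) (ρ : A → P → P) (B : W → Submodule ℂ P) (σ : W → P) (Z S : Set W)
    (E : Set W → (W → Submodule ℂ P) → ℕ → Prop) (v : BM (Quo act Z)) : Prop :=
  ∃ (O : Set W) (hO : Z ⊆ O) (N : W → Submodule ℂ P) (r : ℕ) (β : BM (Quo act O))
    (t : Coch (Tot act ρ O B N)), (∃ O', IsOpen O' ∧ O = S ∩ O') ∧ E O N r ∧
    P269.IsFund act O β ∧ IsThomOf act ρ O B N t ∧
    Gys (Quo.incl act hO) (pull (sec act ρ O B N σ) t) β v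

theorem vr_cj {ρ : A → P → P} {B : W → Submodule ℂ P} {σ : W → P} {Z : Set W} {E}
    {v : BM (Quo act Z)} (h : Vr act ρ B σ Z S E v) : Vr act ρ B σ Z S E (cjB v) :=
  let ⟨O, hO, N, r, β, t, h1, h2, h3, h4, h5⟩ := h
  ⟨O, hO, N, r, cjB β, cjC t, h1, h2, isFund_cjB h3, isThomOf_cj h4, by
    rw [← cjC_pull]; exact gys_cj h5⟩

section sd

variable [IsTopologicalAddGroup P] [ContinuousSMul ℂ P] [T2Space P] {E : Ch.SD A W P} {r r' : ℕ}
  [Holo.IsAct act S] (ho : Orb.Orb Aˣ (Holo.Sp act S)) (h : E.Ok act S r r')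
include ho h

theorem cj_sdEu : cj (hcls (E.eu act S)) = hcls (E.eu act S) := by
  obtain ⟨_, E₁, _, _, -, -, h1, -⟩ := h.exists_isMod ho
  rw [Ch.SD.eu, Ch.SD.hcls_presA ho h1]
  exact congrArg Subtype.val (cj_eu E₁)

theorem cj_sdCh : PowerSeries.map cjE (E.ch act S) = E.ch act S := by
  obtain ⟨_, E₁, _, _, -, -, h1, -⟩ := h.exists_isMod ho
  rw [Ch.SD.ch, Ch.SD.chernT_presA ho h1]
  exact cj_chR E₁

end sd

variable [FiniteDimensional ℂ A] [FiniteDimensional ℂ W] [Holo.IsAct act univ] [FP act S]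

theorem cj_lcq {c : A → ℂ} (h : Hm c) : cj (lcq act S c) = lcq act S c := by
  rw [← lce_val h]
  exact congrArg Subtype.val (cj_c1 (Y := sp act S) _)

theorem cjB_fnd {n : ℕ} (h : Dim act S n) : cjB (fnd act S) = fnd act S :=
  (FP.eq_fundQ h.holOrb (isFund_cjB h.isFund)).trans h.fnd_eq.symm

end quo

variable {S Λ R J K ι ν κ : Type} [Fintype S] [Fintype Λ] [Fintype R] [Fintype J] [Fintype K]
  [Fintype ι] [DecidableEq ι] [Fintype ν] [Fintype κ]

/-- **the definition of the virtual class is real** -/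
theorem isVirF_cj {ch : Ch ι J} {F : Fam S Λ R J K} {e : K → ι → ℕ} {S₀ : Set (ch.WF ν κ Λ)}
    {v : BM (Ch.ModS F S₀)} (h : Ch.IsVirF F e S₀ v) : Ch.IsVirF F e S₀ (cjB v) :=
  vr_cj (E := Ch.IsExt F e) h

theorem isDiag_cj {F : Fam S Λ R J K} {t : Coch F.X2} (h : F.IsDiag t) : F.IsDiag (cjC t) :=
  ⟨cocycle_cjC h.1, (supp_cjC t).trans_subset h.2.1, fun z hz => ⟨isDeg_cjC (h.2.2 z hz).1,
    fun r O φ Φ a b c d e f g i => (cohom_cjC ((h.2.2 z hz).2 r O φ Φ a b c d e f g i)).trans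
      ((cohom_cj_tau r).pull continuous_subtype_val)⟩⟩

theorem cj_rs {F : Wt S Λ R J} {A A' : Set ((Λ → ℂ) × (J → ℂ))} (h : A ⊆ A') (c : H (F.X A')) :
    cj (F.rs h c) = F.rs h (cj c) := cj_map _ c

end Vale.Agent.P269.Re

namespace Vale.Agent.P269

open P291Z Mono
open scoped ComplexConjugate

variable {S Λ R J ν κ : Type} [Fintype S] [Fintype Λ] [Fintype R] [Fintype J]

/-- The conjugate of a factor. -/
noncomputable def Fac.cj {F : Wt S Λ R J} : Fac F ν κ → Fac F ν κ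
  | .psi n => .psi n
  | .ev n A c => .ev n A (Mono.cj c)
  | .par A c => .par A (Mono.cj c)
  | .dg q => .dg q
  | .tw Θ => .tw (MvPolynomial.map conj Θ)

/-- The conjugate of the global data. -/
noncomputable def Wt.Ex.cj {F : Wt S Λ R J} (e : F.Ex) : F.Ex :=
  ⟨e.P, MvPolynomial.map conj e.Θ, e.B, Mono.cj e.c⟩

theorem Wt.exC_cj (F : Wt S Λ R J) : F.exC.cj = F.exC := by
  rw [Wt.Ex.cj, Wt.exC, map_one, Re.cj_one]

theorem Wt.ex0_cj (F : Wt S Λ R J) : F.ex0.cj = F.ex0 := by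
  rw [Wt.Ex.cj, Wt.ex0, map_one, Re.cj_one]

end Vale.Agent.P269
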