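import Vale.Agent.P287Q.Re.Main
import Vale.Agent.P287Q.G.Map.Well

/-!
# Complex conjugation and the invariants: the unconditional statement
-/

namespace Vale.Agent.P269

theorem St.real : St.Real := St.real_of St.well

end Vale.Agent.P269
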