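import Vale.Agent.P287Q.Re.St
import Vale.Agent.P287Q.G.Bas.Lv
import Vale.Agent.P287Q.G.Bas.Dg

/-!
# Complex conjugation and the invariants
-/

set_option linter.unusedSectionVars false

namespace Vale.Agent.P269

open P291Z Set Function Topology Filter Mono Re
open scoped ComplexConjugate

variable {S Λ R J K ι ν κ : Type} [Fintype S] [Fintype Λ] [Fintype R] [Fintype J] [Fintype K]
  [Fintype ι] [DecidableEq ι] [Fintype ν] [Fintype κ]

namespace Wt

variable {S' Λ' R' J' : Type} [Fintype S'] [Fintype Λ'] [Fintype R'] [Fintype J'] {F : Wt S Λ R J}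
  {F' : Wt S' Λ' R' J'} {A : Set ((Λ → ℂ) × (J → ℂ))} {A' : Set ((Λ' → ℂ) × (J' → ℂ))}

theorem cj_lc [FP F.actT A] (ψ : S → ℤ) (χ : R → ℤ) : cj (F.lc A ψ χ) = F.lc A ψ χ :=
  cj_lcq (hm_chT ψ χ)

theorem cj_pb {f} (h : Tq.Eqv F.actT F'.actT A A' f) (c : H (F'.X A')) :
    cj (F.pb F' f A c) = F.pb F' f A (cj c) := by rw [pb_eq h, pb_eq h, cj_map]

theorem intX_cj [FP F.actT A] [CompactSpace (F.X A)] {n : ℕ} (h : Tq.Dim F.actT A n)
    (c : H (F.X A)) : F.intX A (cj c) = conj (F.intX A c) := cj_intg (cjB_fnd h) c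

theorem intB_cj {B : Set (Λ → ℂ)} [FP F.actL B] [CompactSpace (F.Bs B)] {n : ℕ}
    (h : Tq.Dim F.actL B n) (c : H (F.Bs B)) : F.intB B (cj c) = conj (F.intB B c) :=
  cj_intg (cjB_fnd h) c

end Wt

namespace Ch.GZ

variable {ch : Ch ι J} {F : Fam S Λ R J K} {ℓ : R → ι → ℤ} {Z : Set (ch.WF ν κ Λ)} (h : GZ F ℓ Z)
include h

theorem cj_indC (j : J) : PowerSeries.map cjE (indC F.toWt Z j) = indC F.toWt Z j := by
  have := h.act
  obtain ⟨_, a⟩ := h.fld j
  obtain ⟨_, _, b⟩ := h.kos j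
  rw [indC_eq, map_mul, map_invOfUnit, cj_sdCh h.orb a, cj_sdCh h.orb b]

theorem cj_psi (n : Mk ν κ) : cj (F.cl Z (.psi n)) = F.cl Z (.psi n) := by
  have := h.act
  rw [h.cl_psi, map_neg, cj_sdEu h.orb (h.psi n)]

theorem cl_cj {f : Fac F.toWt ν κ} (hA : f.At Z) (hf : f.dq = none) :
    F.cl Z f.cj = cj (F.cl Z f) := by
  cases f with
  | psi n => exact (h.cj_psi n).symm
  | ev n A c => exact (h.cl_ev n hA _).trans ((cj_map _ c).symm.trans (congrArg _ (h.cl_ev n hA c).symm))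
  | par A c => exact (h.cl_par hA _).trans ((cj_map _ c).symm.trans (congrArg _ (h.cl_par hA c).symm))
  | dg q => exact nomatch hf
  | tw Θ =>
    rw [Fam.cl_tw, ← cjE_val, cjE_aeval fun x : J × ℕ =>
      (PowerSeries.coeff_map _ _ _).symm.trans (congrArg _ (h.cj_indC x.1))]
    exact Fam.cl_tw _

omit h in
theorem at_cj {f : Fac F.toWt ν κ} (hA : f.At Z) : f.cj.At Z := by cases f <;> exact hA

variable (hd : F.IsDiag F.diag) (hu : ∀ t t', F.IsDiag t → F.IsDiag t' → Cohom F.Δ2 t t')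
include hd hu

theorem rp_cj {f : Fac F.toWt ν κ} (hA : f.At Z) : F.Rp Z f.cj (cjC (F.coch Z f)) := by
  have k : f.dq = none → f.cj.dq = none → F.Rp Z f.cj (cjC (F.coch Z f)) := fun a b =>
    h.rp_of_cl hd (at_cj hA) b (cocycle_cjC (h.cocycle hd hA))
      ((h.cl_cj hA a).trans (cj_hcls (h.cocycle hd hA)))
  cases f with
  | dg q =>
    change Cohom (diq F.toWt Z q) (F.coch Z (.dg q)) _
    rw [h.diq_eq, show F.coch Z (.dg q) = _ from h.evN_eq q _, cjC_pull]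
    exact (hu _ _ hd (isDiag_cj hd)).pull (h.eqh_nd q).toEqv.qm.continuous
  | _ => exact k rfl rfl

theorem ev_cj {fs : List (Fac F.toWt ν κ)} (hA : ∀ f ∈ fs, f.At Z) (hq : ∀ q, .dg q ∈ fs)
    (hc : IsCompact (dia F.toWt Z)) {B : Set _} (hB : IsClopen B) {v : BM _} (hv : cjB v = v) :
    ev v (ind B * ((fs.map Fac.cj).map (F.coch Z)).prod) =
      conj (ev v (ind B * (fs.map (F.coch Z)).prod)) := by
  rw [← ev_cjC hv, cjC_mul, cjC_ind, cjC_prod, List.map_map (f := F.coch Z)]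
  exact h.ev_congr hd (List.forall_mem_map.2 fun f hf => at_cj (hA f hf))
    (List.forall₂_map_left_iff.2 (List.forall₂_map_right_iff.2 (List.forall₂_same.2 fun f hf =>
      h.rp_cj hd hu (hA f hf)))) (fun q => List.mem_map_of_mem (f := Fac.cj) (hq q))
    (cocycle_ind' hB) (cocycle_ind' hB) rfl hc v

end Ch.GZ

namespace Fam

variable [DecidableEq R] {F : Fam S Λ R J K} {δ : J → ℕ} {k D : ℕ} {g : ℤ} {d : R → ℤ} {u : ν → ℕ}
  {P : AM Λ R J ν κ → Prop} {fs : List (Fac F.toWt ν κ)}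

variable (κ) in
/-- **the virtual class is real** -/
theorem Nice.cj_vir (h : F.Nice δ) (hk : F.Big k) (hD : F.BigD k D) (g : ℤ) (d : R → ℤ)
    (u : ν → ℕ) : cjB (F.vir κ k D g d fun n => u n • δ) = F.vir κ k D g d fun n => u n • δ :=
  let ⟨_, _, _, _, a⟩ := h.vd' κ hk
  let ⟨_, _, b, c⟩ := a D hD g d u
  (c.isVirF_iff b.toStd).1 (isVirF_cj ((c.isVirF_iff b.toStd).2 rfl))

theorem Iv.intg_cj (h : F.Iv δ k g d u P fs) : ∀ᶠ D in atTop,
    F.intg (F.vir κ k D g d fun n => u n • δ) P (fs.map Fac.cj) =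
      conj (F.intg (F.vir κ k D g d fun n => u n • δ) P fs) :=
  let ⟨a, _, b⟩ := h.nice.dg St.dg
  h.lvl.mono fun _ c => c.gz.ev_cj a b c.fac c.dg c.cpt c.clo (h.nice.cj_vir κ h.big c.big g d u)

/-- **the invariants of the conjugate factors** -/
theorem Iv.inv_cj (hW : St.Well) (h : F.Iv δ k g d u P fs) :
    F.inv k g d (fun n => u n • δ) P (fs.map Fac.cj) =
      conj (F.inv k g d (fun n => u n • δ) P fs) := by
  have a := (h.well hW).and h.intg_cj
  obtain ⟨D, b, c⟩ := (a.and (Classical.epsilon_spec (p := fun z => ∀ᶠ D in atTop,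
    z = F.intg (F.vir κ k D g d fun n => u n • δ) P (fs.map Fac.cj))
    ⟨_, a.mono fun _ b => (congrArg conj b.1).trans b.2.symm⟩)).exists
  exact c.trans (b.2.trans (congrArg conj b.1.symm))

end Fam

theorem St.real_of (hW : St.Well) : St.Real := by
  intro S Λ R J K _ _ _ _ _ _ F δ k e A A' h1 h2 h3 h4 h5 h6 d j l₁ l₂ l₃
  rw [Fam.cor_map, F.cor_eq_corF k e δ A A' d j rfl rfl rfl, Fam.corF, Fam.corF,
    ← (Fam.iv_fsC h1 h2 h3 h4 h5 h6 _ d).inv_cj hW]
  simp only [Wt.fsC, List.map_cons, List.map_append, List.map_flatten, List.map_ofFn, comp_def,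
    List.map_replicate, List.map_nil]
  rfl

end Vale.Agent.P269
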