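import Vale.Agent.P287Q.Re.Bas
import Vale.Agent.P287Q.G.Gen.Num

/-!
# Complex conjugation and the invariants: the statement
-/

namespace Vale.Agent.P269.St

open P291Z Mono
open scoped ComplexConjugate

/-- The correlators of the conjugate classes are the conjugate correlators. -/
def Real : Prop :=
  ∀ {S Λ R J K : Type} [Fintype S] [Fintype Λ] [Fintype R] [Fintype J] [Fintype K] [DecidableEq R]
    (F : Fam S Λ R J K) (δ : J → ℕ) (k : ℕ) (e : F.Ex) {A A' : Set _}, F.Nice δ → F.Cp → F.Big k →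
    F.ExOk k e → F.cone ⊆ A → F.dvs δ ⊆ A' → ∀ d j l₁ l₂ l₃,
    F.cor k e.cj δ A A' d j (l₁.map (Prod.map id cj)) l₂ (l₃.map (Prod.map id cj)) =
      conj (F.cor k e δ A A' d j l₁ l₂ l₃)

end Vale.Agent.P269.St
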